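import Mathlib
import Vale.Agent.P095.General.Defs

/-!
Consequences of the axioms of quasitracial states, stated with the order.
-/

noncomputable section

open scoped CStarAlgebra
open Finset

namespace Vale.Agent.P095.General.QT

universe u

variable {D : Type u} [CStarAlgebra D] [PartialOrder D] [StarOrderedRing D] (Q : QT D)

/-- A nonnegative element as the square of its root. -/
lemma star_sqrt_mul {a : D} (ha : 0 ≤ a) : star (CFC.sqrt a) * CFC.sqrt a = a := by
  rw [(IsSelfAdjoint.of_nonneg (CFC.sqrt_nonneg a)).star_eq, CFC.sqrt_mul_sqrt_self a ha]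

lemma q_nonneg {a : D} (ha : 0 ≤ a) : 0 ≤ Q.q a := star_sqrt_mul ha ▸ Q.nonneg _

lemma q_smul {a : D} (ha : 0 ≤ a) {r : ℝ} (hr : 0 ≤ r) : Q.q (r • a) = r * Q.q a := by
  have h := Q.smul r (CFC.sqrt a) hr
  rwa [star_sqrt_mul ha] at h

lemma q_zero : Q.q 0 = 0 := by simpa using Q.q_smul (le_refl (0 : D)) (le_refl (0 : ℝ))

lemma q_mono {a b : D} (ha : 0 ≤ a) (h : a ≤ b) : Q.q a ≤ Q.q b := by
  have h1 := Q.mono (CFC.sqrt a) (CFC.sqrt (b - a))
  rwa [star_sqrt_mul ha, star_sqrt_mul (sub_nonneg.2 h), add_sub_cancel] at h1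

lemma q_orth {a b : D} (ha : 0 ≤ a) (hb : 0 ≤ b) (h : a * b = 0) :
    Q.q (a + b) = Q.q a + Q.q b := by
  have h1 := Q.orth (CFC.sqrt a) (CFC.sqrt b)
  rw [star_sqrt_mul ha, star_sqrt_mul hb] at h1
  exact h1 h

lemma q_tri {a b : D} (ha : 0 ≤ a) (hb : 0 ≤ b) {t : ℝ} (ht : 0 < t) :
    Q.q (a + b) ≤ (1 + t) * Q.q a + (1 + 1 / t) * Q.q b := by
  have h1 := Q.tri (CFC.sqrt a) (CFC.sqrt b) t ht
  rwa [star_sqrt_mul ha, star_sqrt_mul hb] at h1

lemma q_algebraMap {r : ℝ} (hr : 0 ≤ r) : Q.q (algebraMap ℝ D r) = r := by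
  rw [Algebra.algebraMap_eq_smul_one, Q.q_smul zero_le_one hr, Q.one, mul_one]

lemma q_le_norm {a : D} (ha : 0 ≤ a) : Q.q a ≤ ‖a‖ :=
  (Q.q_mono ha (IsSelfAdjoint.of_nonneg ha).le_algebraMap_norm_self).trans_eq
    (Q.q_algebraMap (norm_nonneg a))

lemma q_sum_orth {ι : Type*} (s : Finset ι) (f : ι → D) (hf : ∀ i, 0 ≤ f i)
    (h : ∀ i ∈ s, ∀ j ∈ s, i ≠ j → f i * f j = 0) : Q.q (∑ i ∈ s, f i) = ∑ i ∈ s, Q.q (f i) := by
  classical
  induction s using Finset.induction_on with
  | empty => simp [Q.q_zero]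
  | insert a s ha ih =>
    rw [sum_insert ha, sum_insert ha,
      Q.q_orth (hf a) (sum_nonneg fun i _ => hf i) (by
        rw [mul_sum]
        exact sum_eq_zero fun j hj => h a (mem_insert_self _ _) j (mem_insert_of_mem hj)
          fun e => ha (e ▸ hj)),
      ih fun i hi j hj => h i (mem_insert_of_mem hi) j (mem_insert_of_mem hj)]

lemma sq_eq (x : D) : Q.sq x = Q.q (star x * x) := rfl

lemma sq_nonneg (x : D) : 0 ≤ Q.sq x := Q.nonneg x

lemma sq_le_norm (x : D) : Q.sq x ≤ ‖x‖ ^ 2 :=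
  (Q.q_le_norm (star_mul_self_nonneg x)).trans_eq (by rw [CStarRing.norm_star_mul_self, pow_two])

lemma sq_star (x : D) : Q.sq (star x) = Q.sq x := by
  rw [sq_eq, sq_eq, star_star, Q.swap]

lemma star_add_mul_le (x y : D) {t : ℝ} (ht : 0 < t) :
    star (x + y) * (x + y) ≤ (1 + t) • (star x * x) + (1 + 1 / t) • (star y * y) := by
  have key : (1 + t) • (star x * x) + (1 + 1 / t) • (star y * y) - star (x + y) * (x + y)
      = star (Real.sqrt t • x - (Real.sqrt t)⁻¹ • y) * (Real.sqrt t • x - (Real.sqrt t)⁻¹ • y) := by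
    have h1 : Real.sqrt t * Real.sqrt t = t := Real.mul_self_sqrt ht.le
    have h0 : Real.sqrt t ≠ 0 := (Real.sqrt_pos.2 ht).ne'
    simp only [star_add, star_sub, star_smul, star_trivial, add_mul, mul_add, sub_mul, mul_sub,
      smul_mul_assoc, mul_smul_comm, smul_sub, smul_smul, add_smul, one_smul, ← mul_inv, h1,
      inv_mul_cancel₀ h0, mul_inv_cancel₀ h0, one_div]
    abel
  rw [← sub_nonneg, key]
  exact star_mul_self_nonneg _

/-- Continuity of the squared two-norm. -/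
lemma sq_add_le (x y : D) {t : ℝ} (ht : 0 < t) :
    Q.sq (x + y) ≤ (1 + t) ^ 2 * Q.sq x + (1 + 1 / t) ^ 2 * Q.sq y := by
  have h1 : 0 ≤ (1 + t) • (star x * x) := smul_nonneg (by linarith) (star_mul_self_nonneg x)
  have h2 : 0 ≤ (1 + 1 / t) • (star y * y) := smul_nonneg (by positivity) (star_mul_self_nonneg y)
  refine ((Q.q_mono (star_mul_self_nonneg _) (star_add_mul_le x y ht)).trans
    (Q.q_tri h1 h2 ht)).trans_eq ?_
  rw [Q.q_smul (star_mul_self_nonneg x) (by linarith),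
    Q.q_smul (star_mul_self_nonneg y) (by positivity), sq_eq, sq_eq]
  ring

lemma null_zero : Q.Null 0 := by simp [Null, sq_eq, Q.q_zero]

lemma Null.add {x y : D} (hx : Q.Null x) (hy : Q.Null y) : Q.Null (x + y) :=
  le_antisymm ((Q.sq_add_le x y one_pos).trans_eq (by
    rw [show Q.sq x = 0 from hx, show Q.sq y = 0 from hy]; simp)) (Q.sq_nonneg _)

lemma Null.adj {x : D} (hx : Q.Null x) : Q.Null (star x) := (Q.sq_star x).trans hx

lemma Null.mul_left {x : D} (hx : Q.Null x) (z : D) : Q.Null (z * x) := by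
  refine le_antisymm ?_ (Q.sq_nonneg _)
  have h : Q.sq (z * x) ≤ ‖star z * z‖ * Q.sq x := by
    rw [sq_eq, sq_eq, ← Q.q_smul (star_mul_self_nonneg x) (norm_nonneg _)]
    refine Q.q_mono (star_mul_self_nonneg _) ?_
    rw [star_mul, show star x * star z * (z * x)
      = star x * (star z * z) * x by simp only [mul_assoc]]
    exact CStarAlgebra.star_left_conjugate_le_norm_smul
  rwa [show Q.sq x = 0 from hx, mul_zero] at h

lemma Null.mul_right {x : D} (hx : Q.Null x) (z : D) : Q.Null (x * z) := by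
  simpa [star_mul] using Null.adj Q (Null.mul_left Q (Null.adj Q hx) (star z))

lemma Null.smul {x : D} (hx : Q.Null x) (z : ℂ) : Q.Null (z • x) := by
  simpa [Algebra.smul_def] using Null.mul_left Q hx (algebraMap ℂ D z)

lemma Null.neg {x : D} (hx : Q.Null x) : Q.Null (-x) := by
  simpa using Null.smul Q hx (-1)

/-- Null elements form a closed set. -/
lemma null_of_approx {x : D} (h : ∀ ε : ℝ, 0 < ε → ∃ j, Q.Null j ∧ ‖x - j‖ ≤ ε) : Q.Null x := by
  refine le_antisymm (le_of_forall_pos_le_add fun ε hε => ?_) (Q.sq_nonneg _)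
  obtain ⟨j, hj, hxj⟩ := h (Real.sqrt (ε / 4)) (Real.sqrt_pos.2 (by positivity))
  have h1 := Q.sq_add_le j (x - j) one_pos
  rw [add_sub_cancel, show Q.sq j = 0 from hj] at h1
  have h2 := Q.sq_le_norm (x - j)
  have h3 : ‖x - j‖ ^ 2 ≤ ε / 4 := by
    rw [← Real.sq_sqrt (show (0 : ℝ) ≤ ε / 4 by positivity)]
    exact pow_le_pow_left₀ (norm_nonneg _) hxj 2
  norm_num at h1
  linarith

/-- The squared two-norm only depends on the class modulo null elements. -/
lemma sq_congr {x y : D} (h : Q.Null (x - y)) : Q.sq x = Q.sq y := by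
  have key : ∀ x y : D, Q.Null (x - y) → Q.sq x ≤ Q.sq y := by
    intro x y h
    refine le_of_forall_pos_le_add fun ε hε => ?_
    set c := Q.sq y with hc
    have hc0 : 0 ≤ c := Q.sq_nonneg y
    set t := min 1 (ε / (3 * c + 1))
    have ht : 0 < t := lt_min one_pos (by positivity)
    have h1 := Q.sq_add_le y (x - y) ht
    rw [add_sub_cancel, show Q.sq (x - y) = 0 from h, mul_zero, add_zero] at h1
    have h2 : t * (3 * c + 1) ≤ ε := (le_div_iff₀ (by positivity)).1 (min_le_right _ _)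
    have h3 : t * t ≤ t := mul_le_of_le_one_left ht.le (min_le_left _ _)
    rw [← hc] at h1
    nlinarith
  exact le_antisymm (key x y h) (key y x (by simpa using Null.neg Q h))

end Vale.Agent.P095.General.QT
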