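import Mathlib
import Vale.Agent.P095.General.Linear.Basic

/-!
A quasitracial state is additive on commuting elements: both elements are cut into pieces on
which they are almost constant, leaving gaps which are small in the state.
-/

noncomputable section

open scoped CStarAlgebra
open Finset

namespace Vale.Agent.P095.General.QT

universe u

/-- The piece between two consecutive grid points, with slopes at both ends. -/
def piece (w c h t : ℝ) : ℝ := max 0 (min 1 (min ((t - c) / w) ((c + h - t) / w)))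

lemma cont_piece (w c h : ℝ) : Continuous (piece w c h) :=
  continuous_const.max (continuous_const.min
    (((continuous_id.sub continuous_const).div_const w).min
      ((continuous_const.sub continuous_id).div_const w)))

lemma piece_pos {w c h t : ℝ} (hw : 0 < w) (hp : piece w c h t ≠ 0) : c < t ∧ t < c + h := by
  by_contra hne
  refine hp (max_eq_left ((min_le_right _ _).trans ?_))
  rw [not_and_or, not_lt, not_lt] at hne
  rcases hne with h1 | h1
  · exact (min_le_left _ _).trans (div_nonpos_of_nonpos_of_nonneg (by linarith) hw.le)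
  · exact (min_le_right _ _).trans (div_nonpos_of_nonpos_of_nonneg (by linarith) hw.le)

lemma piece_eq_one {w c h t : ℝ} (hw : 0 < w) (h1 : w ≤ t - c) (h2 : w ≤ c + h - t) :
    piece w c h t = 1 := by
  rw [piece, min_eq_left (le_min ((one_le_div hw).2 h1) ((one_le_div hw).2 h2)),
    max_eq_right zero_le_one]

/-- The m-th grid: M grids of mesh 1/n, shifted against each other by 2w. -/
def grid (n M : ℕ) (m k : ℕ) : ℝ := ((k : ℝ) * M + m - M) / (M * n)

/-- The k-th piece of the m-th grid. -/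
def pc (n M m k : ℕ) : ℝ → ℝ := piece (1 / (2 * M * n)) (grid n M m k) (1 / n)

/-- What the pieces of the m-th grid leave out. -/
def gap (n M m : ℕ) (t : ℝ) : ℝ := 1 - ∑ k ∈ range (n + 2), pc n M m k t

variable {n M : ℕ}

lemma pc_ne (hn : 0 < n) (hM : 0 < M) {m k : ℕ} {t : ℝ} (h : pc n M m k t ≠ 0) :
    ((k : ℝ) * M + m - M) < t * (M * n) ∧ t * (M * n) < ((k : ℝ) + 1) * M + m - M := by
  have hMn : (0 : ℝ) < M * n := by positivity
  obtain ⟨h1, h2⟩ := piece_pos (by positivity) h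
  have e : (M : ℝ) / (M * n) = 1 / n := by field_simp
  rw [grid] at h1 h2
  rw [← e, ← add_div, lt_div_iff₀ hMn] at h2
  rw [div_lt_iff₀ hMn] at h1
  constructor <;> linarith

lemma pc_mul (hn : 0 < n) (hM : 0 < M) {m k k' : ℕ} (hk : k ≠ k') (t : ℝ) :
    pc n M m k t * pc n M m k' t = 0 := by
  by_contra h
  obtain ⟨h1, h2⟩ := mul_ne_zero_iff.1 h
  obtain ⟨a1, a2⟩ := pc_ne hn hM h1
  obtain ⟨b1, b2⟩ := pc_ne hn hM h2
  have hM' : (0 : ℝ) < M := by positivity
  rcases Nat.lt_or_gt_of_ne hk with hlt | hlt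
  · have : (k : ℝ) + 1 ≤ k' := by exact_mod_cast hlt
    nlinarith
  · have : (k' : ℝ) + 1 ≤ k := by exact_mod_cast hlt
    nlinarith

lemma pc_nonneg (m k : ℕ) (t : ℝ) : 0 ≤ pc n M m k t := le_max_left _ _

lemma pc_le_one (m k : ℕ) (t : ℝ) : pc n M m k t ≤ 1 := max_le zero_le_one (min_le_left _ _)

lemma gap_nonneg (hn : 0 < n) (hM : 0 < M) (m : ℕ) (t : ℝ) : 0 ≤ gap n M m t := by
  rw [gap, sub_nonneg]
  by_cases h : ∃ k ∈ range (n + 2), pc n M m k t ≠ 0
  · obtain ⟨k, hk, hne⟩ := h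
    rw [sum_eq_single k (fun j _ hj => (mul_eq_zero.1 (pc_mul hn hM hj t)).resolve_right hne)
      (fun h' => absurd hk h')]
    exact pc_le_one m k t
  · rw [sum_eq_zero fun k hk => not_not.1 fun h' => h ⟨k, hk, h'⟩]
    exact zero_le_one

lemma gap_le_one (m : ℕ) (t : ℝ) : gap n M m t ≤ 1 :=
  sub_le_self _ (sum_nonneg fun k _ => pc_nonneg m k t)

/-- Away from the grid points the gap vanishes. -/
lemma gap_ne (hn : 0 < n) (hM : 0 < M) {m : ℕ} (hm : m < M) {t : ℝ} (ht : t ∈ Set.Icc (0 : ℝ) 1)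
    (h : gap n M m t ≠ 0) :
    ∃ j : ℤ, |t * (M * n) - j| < 1 / 2 ∧ j % (M : ℤ) = m := by
  have hM' : (0 : ℝ) < M := by positivity
  set s := t * (M * n) with hs
  have hs0 : 0 ≤ s := by have := ht.1; positivity
  have hs1 : s ≤ M * n := mul_le_of_le_one_left (by positivity) ht.2
  set k := ⌊(s - m + M) / M⌋₊ with hk
  have hm' : (m : ℝ) < M := by exact_mod_cast hm
  have hx : 0 ≤ (s - m + M) / M := div_nonneg (by linarith) hM'.le
  have hk1 : (k : ℝ) * M ≤ s - m + M := (le_div_iff₀ hM').1 (Nat.floor_le hx)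
  have hk2 : s - m + M < ((k : ℝ) + 1) * M := (div_lt_iff₀ hM').1 (Nat.lt_floor_add_one _)
  have hkn : k ∈ range (n + 2) := by
    rw [mem_range]
    have : (k : ℝ) < n + 2 := by
      have : (k : ℝ) * M < ((n : ℝ) + 2) * M := by nlinarith
      exact lt_of_mul_lt_mul_right this hM'.le
    exact_mod_cast this
  by_contra hne
  simp only [not_exists, not_and] at hne
  have hl : (k : ℝ) * M + m - M + 1 / 2 ≤ s := by
    by_contra hlt
    refine hne ((k : ℤ) * M + m - M) ?_ ?_
    · push_cast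
      rw [abs_lt]
      constructor <;> linarith
    · rw [Int.sub_emod_right, add_comm, Int.add_mul_emod_self_right]
      exact Int.emod_eq_of_lt (by positivity) (by exact_mod_cast hm)
  have hr : s + 1 / 2 ≤ ((k : ℝ) + 1) * M + m - M := by
    by_contra hlt
    refine hne (((k : ℤ) + 1) * M + m - M) ?_ ?_
    · push_cast
      rw [abs_lt]
      constructor <;> linarith
    · rw [Int.sub_emod_right, add_comm, Int.add_mul_emod_self_right]
      exact Int.emod_eq_of_lt (by positivity) (by exact_mod_cast hm)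
  apply h
  have hMn : (0 : ℝ) < M * n := by positivity
  have h1 : 1 / (2 * M * n) ≤ t - grid n M m k := by
    rw [grid, show t = s / (M * n) by rw [hs]; field_simp, ← sub_div, div_le_div_iff₀
      (by positivity) hMn]
    nlinarith
  have h2 : 1 / (2 * M * n) ≤ grid n M m k + 1 / n - t := by
    have e : (1 : ℝ) / n = M / (M * n) := by field_simp
    rw [grid, show t = s / (M * n) by rw [hs]; field_simp, e, ← add_div, ← sub_div,
      div_le_div_iff₀ (by positivity) hMn]
    nlinarith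
  have hone : pc n M m k t = 1 := piece_eq_one (by positivity) h1 h2
  rw [gap, sum_eq_single k (fun j _ hj =>
    (mul_eq_zero.1 (pc_mul hn hM hj t)).resolve_right (by rw [hone]; exact one_ne_zero))
    (fun h' => absurd hkn h'), hone, sub_self]

lemma gap_mul (hn : 0 < n) (hM : 0 < M) {m m' : ℕ} (hm : m < M) (hm' : m' < M) (hne : m ≠ m')
    {t : ℝ} (ht : t ∈ Set.Icc (0 : ℝ) 1) : gap n M m t * gap n M m' t = 0 := by
  by_contra h
  obtain ⟨h1, h2⟩ := mul_ne_zero_iff.1 h
  obtain ⟨j, hj, hjm⟩ := gap_ne hn hM hm ht h1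
  obtain ⟨j', hj', hjm'⟩ := gap_ne hn hM hm' ht h2
  rw [abs_lt] at hj hj'
  have e : j = j' := by
    have a1 : ((j - j' : ℤ) : ℝ) < 1 := by push_cast; linarith
    have a2 : (-1 : ℝ) < ((j - j' : ℤ) : ℝ) := by push_cast; linarith
    have b1 : j - j' < 1 := by exact_mod_cast a1
    have b2 : -1 < j - j' := by exact_mod_cast a2
    omega
  subst e
  exact hne (by exact_mod_cast hjm.symm.trans hjm')

variable {D : Type u} [CStarAlgebra D] [PartialOrder D] [StarOrderedRing D] (Q : QT D)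

/-- A number in the spectrum of a positive contraction. -/
lemma spec_mem {a : D} (ha : 0 ≤ a) (ha1 : a ≤ 1) {t : ℝ} (ht : t ∈ spectrum ℝ a) :
    t ∈ Set.Icc (0 : ℝ) 1 := by
  refine ⟨spectrum_nonneg_of_nonneg ha ht, ?_⟩
  rw [← map_one (algebraMap ℝ D)] at ha1
  exact (le_algebraMap_iff_spectrum_le (IsSelfAdjoint.of_nonneg ha)).1 ha1 t ht

/-- One of M grids has a small gap. -/
lemma exists_gap {a : D} (ha : 0 ≤ a) (ha1 : a ≤ 1) (hn : 0 < n) (hM : 0 < M) :
    ∃ m, m < M ∧ Q.q (cfc (gap n M m) a) ≤ 1 / M := by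
  have hc : ∀ m, Continuous (gap n M m) := fun m =>
    continuous_const.sub (continuous_finsetSum _ fun k _ => cont_piece _ _ _)
  have hnn : ∀ m, 0 ≤ cfc (gap n M m) a := fun m => cfc_nonneg fun t _ => gap_nonneg hn hM m t
  have horth : ∀ i ∈ range M, ∀ j ∈ range M, i ≠ j →
      cfc (gap n M i) a * cfc (gap n M j) a = 0 := by
    intro i hi j hj hij
    rw [← cfc_mul (gap n M i) (gap n M j) a (hc i).continuousOn (hc j).continuousOn,
      ← cfc_zero ℝ a]
    exact cfc_congr fun t ht =>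
      gap_mul hn hM (mem_range.1 hi) (mem_range.1 hj) hij (spec_mem ha ha1 ht)
  have hle : ∑ m ∈ range M, Q.q (cfc (gap n M m) a) ≤ 1 := by
    rw [← Q.q_sum_orth _ _ hnn horth, ← Q.one,
      ← cfc_sum (fun m => gap n M m) a (range M) fun m _ => (hc m).continuousOn]
    refine Q.q_mono (cfc_nonneg fun t _ => ?_) (cfc_le_one _ a fun t ht => ?_)
    · simp only [Finset.sum_apply]
      exact sum_nonneg fun m _ => gap_nonneg hn hM m t
    · simp only [Finset.sum_apply]
      by_cases h : ∃ m ∈ range M, gap n M m t ≠ 0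
      · obtain ⟨m, hm, hne⟩ := h
        rw [sum_eq_single m (fun j hj hjm => (mul_eq_zero.1 (gap_mul hn hM (mem_range.1 hj)
          (mem_range.1 hm) hjm (spec_mem ha ha1 ht))).resolve_right hne) (fun h' => absurd hm h')]
        exact gap_le_one m t
      · rw [sum_eq_zero fun m hm => not_not.1 fun h' => h ⟨m, hm, h'⟩]
        exact zero_le_one
  have hM' : (0 : ℝ) < M := by positivity
  obtain ⟨m, hm, hmin⟩ := exists_le_of_sum_le (nonempty_range_iff.2 hM.ne')
    (f := fun m => Q.q (cfc (gap n M m) a)) (g := fun _ => 1 / (M : ℝ))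
    (by rw [sum_const, card_range, nsmul_eq_mul, mul_one_div, div_self hM'.ne']; exact hle)
  exact ⟨m, mem_range.1 hm, hmin⟩

/-- Bounds on a piece. -/
lemma piece_bounds {a : D} (ha : 0 ≤ a) (ha1 : a ≤ 1) (hn : 0 < n) (hM : 0 < M) (m k : ℕ) :
    max (grid n M m k) 0 • cfc (pc n M m k) a ≤ a * cfc (pc n M m k) a ∧
      a * cfc (pc n M m k) a ≤ (max (grid n M m k) 0 + 1 / n) • cfc (pc n M m k) a := by
  have hsa := IsSelfAdjoint.of_nonneg ha
  have hc : Continuous (pc n M m k) := cont_piece _ _ _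
  have e : a * cfc (pc n M m k) a = cfc (fun t : ℝ => t * pc n M m k t) a := by
    rw [cfc_mul (fun t : ℝ => t) (pc n M m k) a continuous_id.continuousOn hc.continuousOn,
      cfc_id' ℝ a hsa]
  rw [e]
  constructor <;> rw [← cfc_smul _ (pc n M m k) a hc.continuousOn] <;>
    refine cfc_mono (fun t ht => ?_) (by fun_prop) (by fun_prop) <;>
    rw [smul_eq_mul] <;> rcases eq_or_ne (pc n M m k t) 0 with h0 | h0
  · simp [h0]
  · exact mul_le_mul_of_nonneg_right
      (max_le (piece_pos (by positivity) h0).1.le (spec_mem ha ha1 ht).1) (pc_nonneg m k t)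
  · simp [h0]
  · refine mul_le_mul_of_nonneg_right ?_ (pc_nonneg m k t)
    have := le_max_left (grid n M m k) 0
    linarith [(piece_pos (by positivity) h0).2]

/-- The pieces cover everything up to a small gap. -/
lemma exists_cover {a b : D} (ha : 0 ≤ a) (ha1 : a ≤ 1) (hb : 0 ≤ b) (hb1 : b ≤ 1)
    (hab : Commute a b) (hn : 0 < n) (hM : 0 < M) :
    ∃ (P : Fin (n + 2) × Fin (n + 2) → D) (α β : Fin (n + 2) × Fin (n + 2) → ℝ) (G : D),
      (∀ i, 0 ≤ P i ∧ Commute a (P i) ∧ Commute b (P i) ∧ 0 ≤ α i ∧ 0 ≤ β i) ∧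
      (∀ i j, i ≠ j → P i * P j = 0) ∧
      (∀ i, α i • P i ≤ a * P i ∧ a * P i ≤ (α i + 1 / n) • P i) ∧
      (∀ i, β i • P i ≤ b * P i ∧ b * P i ≤ (β i + 1 / n) • P i) ∧
      ∑ i, P i + G = 1 ∧ 0 ≤ G ∧ Commute a G ∧ Commute b G ∧ Q.q G ≤ 4 / M := by
  obtain ⟨m, hm, hgm⟩ := Q.exists_gap ha ha1 hn hM
  obtain ⟨l, hl, hgl⟩ := Q.exists_gap hb hb1 hn hM
  set A : Fin (n + 2) → D := fun k => cfc (pc n M m k) a with hA
  set B : Fin (n + 2) → D := fun k => cfc (pc n M l k) b with hB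
  set ga := cfc (gap n M m) a with hga
  set gb := cfc (gap n M l) b with hgb
  have hasa := IsSelfAdjoint.of_nonneg ha
  have hbsa := IsSelfAdjoint.of_nonneg hb
  have hA0 : ∀ k, 0 ≤ A k := fun k => cfc_nonneg fun t _ => pc_nonneg m k t
  have hB0 : ∀ k, 0 ≤ B k := fun k => cfc_nonneg fun t _ => pc_nonneg l k t
  have hcA : ∀ (f : ℝ → ℝ) x, Commute a x → Commute (cfc f a) x := fun f x h => h.cfc_real f
  have hAB : ∀ (f g : ℝ → ℝ), Commute (cfc f a) (cfc g b) :=
    fun f g => ((hab.cfc_real f).symm.cfc_real g).symm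
  have haA : ∀ f : ℝ → ℝ, Commute a (cfc f a) := fun f => ((Commute.refl a).cfc_real f).symm
  have haB : ∀ f : ℝ → ℝ, Commute a (cfc f b) := fun f => (hab.symm.cfc_real f).symm
  have hbB : ∀ f : ℝ → ℝ, Commute b (cfc f b) := fun f => ((Commute.refl b).cfc_real f).symm
  have hbA : ∀ f : ℝ → ℝ, Commute b (cfc f a) := fun f => (hab.cfc_real f).symm
  have hc : ∀ m k, Continuous (pc n M m k) := fun _ _ => cont_piece _ _ _
  have hgsum : ∀ (x : D), IsSelfAdjoint x → ∀ m,
      ∑ k : Fin (n + 2), cfc (pc n M m k) x + cfc (gap n M m) x = 1 := by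
    intro x hx m
    rw [Fin.sum_univ_eq_sum_range fun k => cfc (pc n M m k) x,
      ← cfc_sum (fun k => pc n M m k) x (range (n + 2)) fun k _ => (hc m k).continuousOn,
      ← cfc_add (a := x) (∑ k ∈ range (n + 2), pc n M m k) (gap n M m)
        (Finset.sum_fn (range (n + 2)) (fun k => pc n M m k) ▸
          continuous_finsetSum (range (n + 2)) fun k _ => hc m k).continuousOn
        (continuous_const.sub (continuous_finsetSum _ fun k _ => hc m k)).continuousOn,
      ← cfc_const_one ℝ x hx]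
    exact cfc_congr fun t _ => by simp [gap, Finset.sum_apply]
  refine ⟨fun i => A i.1 * B i.2, fun i => max (grid n M m i.1) 0,
    fun i => max (grid n M l i.2) 0, ga + (1 - ga) * gb, fun i => ⟨?_, ?_, ?_, ?_, ?_⟩,
    fun i j hij => ?_, fun i => ?_, fun i => ?_, ?_, ?_, ?_, ?_, ?_⟩
  · exact (hAB _ _).mul_nonneg (hA0 _) (hB0 _)
  · exact (haA _).mul_right (haB _)
  · exact (hbA _).mul_right (hbB _)
  · exact le_max_right _ _
  · exact le_max_right _ _
  · have e : A i.1 * B i.2 * (A j.1 * B j.2) = A i.1 * A j.1 * (B i.2 * B j.2) :=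
      (hAB _ _).symm.mul_mul_mul_comm _ _
    rw [e]
    rcases eq_or_ne i.1 j.1 with h1 | h1
    · have h2 : (i.2 : ℕ) ≠ j.2 := fun h => hij (Prod.ext h1 (Fin.ext h))
      simp only [hB, ← cfc_mul (pc n M l i.2) (pc n M l j.2) b (hc _ _).continuousOn
        (hc _ _).continuousOn]
      rw [cfc_congr (g := fun _ => (0 : ℝ)) fun t _ => pc_mul hn hM h2 t, cfc_const_zero, mul_zero]
    · simp only [hA, ← cfc_mul (pc n M m i.1) (pc n M m j.1) a (hc _ _).continuousOn
        (hc _ _).continuousOn]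
      rw [cfc_congr (g := fun _ => (0 : ℝ)) fun t _ => pc_mul hn hM (Fin.val_ne_of_ne h1) t,
        cfc_const_zero, zero_mul]
  · obtain ⟨h1, h2⟩ := piece_bounds ha ha1 hn hM m i.1
    constructor
    · rw [← smul_mul_assoc, ← mul_assoc, ← sub_nonneg, ← sub_mul]
      exact Commute.mul_nonneg (sub_nonneg.2 h1) (hB0 _)
        (((haB _).mul_left (hAB _ _)).sub_left ((hAB _ _).smul_left _))
    · rw [← smul_mul_assoc, ← mul_assoc, ← sub_nonneg, ← sub_mul]
      exact Commute.mul_nonneg (sub_nonneg.2 h2) (hB0 _)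
        (((hAB _ _).smul_left _).sub_left ((haB _).mul_left (hAB _ _)))
  · obtain ⟨h1, h2⟩ := piece_bounds hb hb1 hn hM l i.2
    constructor
    · rw [← mul_smul_comm, ← mul_assoc, (hbA _).eq, mul_assoc, ← sub_nonneg, ← mul_sub]
      exact Commute.mul_nonneg (hA0 _) (sub_nonneg.2 h1)
        (((hbA _).symm.mul_right (hAB _ _)).sub_right ((hAB _ _).smul_right _))
    · rw [← mul_smul_comm, ← mul_assoc, (hbA _).eq, mul_assoc, ← sub_nonneg, ← mul_sub]
      exact Commute.mul_nonneg (hA0 _) (sub_nonneg.2 h2)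
        (((hAB _ _).smul_right _).sub_right ((hbA _).symm.mul_right (hAB _ _)))
  · rw [Fintype.sum_prod_type, ← sum_mul_sum, eq_sub_of_add_eq (hgsum a hasa m),
      eq_sub_of_add_eq (hgsum b hbsa l), ← hga, ← hgb]
    noncomm_ring
  · exact add_nonneg (cfc_nonneg fun t _ => gap_nonneg hn hM m t) (Commute.mul_nonneg
      (sub_nonneg.2 (cfc_le_one _ a fun t _ => gap_le_one m t))
      (cfc_nonneg fun t _ => gap_nonneg hn hM l t)
      ((Commute.one_left _).sub_left (hAB _ _)))
  · exact (haA _).add_right (((Commute.one_right _).sub_right (haA _)).mul_right (haB _))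
  · exact (hbA _).add_right (((Commute.one_right _).sub_right (hbA _)).mul_right (hbB _))
  · have hga0 : 0 ≤ ga := cfc_nonneg fun t _ => gap_nonneg hn hM m t
    have hgb0 : 0 ≤ gb := cfc_nonneg fun t _ => gap_nonneg hn hM l t
    have hga1 : ga ≤ 1 := cfc_le_one _ a fun t _ => gap_le_one m t
    have h1 : 0 ≤ (1 - ga) * gb := Commute.mul_nonneg (sub_nonneg.2 hga1) hgb0
      ((Commute.one_left _).sub_left (hAB _ _))
    have h2 : (1 - ga) * gb ≤ gb := by
      rw [← sub_nonneg, sub_mul, one_mul, sub_sub_cancel]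
      exact Commute.mul_nonneg hga0 hgb0 (hAB _ _)
    refine (Q.q_tri hga0 h1 one_pos).trans ?_
    have h3 := (Q.q_mono h1 h2).trans hgl
    norm_num
    linarith [show (4 : ℝ) / M = 2 * (1 / M) + 2 * (1 / M) by ring]

/-- Additivity on commuting positive contractions. -/
lemma q_add_of_le_one {a b : D} (ha : 0 ≤ a) (ha1 : a ≤ 1) (hb : 0 ≤ b) (hb1 : b ≤ 1)
    (hab : Commute a b) : Q.q (a + b) = Q.q a + Q.q b := by
  refine eq_of_forall_dist_le fun ε hε => ?_
  set s := min 1 (ε / 12)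
  have hs : 0 < s := lt_min one_pos (by positivity)
  obtain ⟨n, hn⟩ := exists_nat_gt (12 / ε)
  obtain ⟨M, hM⟩ := exists_nat_gt (12 * (8 * (1 + 1 / s)) / ε)
  have hn0 : 0 < n := by exact_mod_cast (show (0 : ℝ) < n from lt_trans (by positivity) hn)
  have hM0 : 0 < M := by exact_mod_cast (show (0 : ℝ) < M from lt_trans (by positivity) hM)
  obtain ⟨P, α, β, G, hP, horth, hα, hβ, hsum, hG0, haG, hbG, hG⟩ :=
    Q.exists_cover ha ha1 hb hb1 hab hn0 hM0
  have hPle : ∑ i, P i ≤ 1 := by rw [← hsum]; exact le_add_of_nonneg_right hG0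
  have hP0 : ∀ i, 0 ≤ P i := fun i => (hP i).1
  have hqP : ∑ i, Q.q (P i) ≤ 1 := by
    rw [← Q.q_sum_orth univ P hP0 fun i _ j _ => horth i j, ← Q.one]
    exact Q.q_mono (sum_nonneg fun i _ => hP0 i) hPle
  have key : ∀ c : D, 0 ≤ c → c ≤ 1 + 1 → (∀ i, Commute c (P i)) → Commute c G →
      ∑ i, Q.q (c * P i) ≤ Q.q c ∧
      Q.q c ≤ (1 + s) * ∑ i, Q.q (c * P i) + (1 + 1 / s) * (8 / M) := by
    intro c hc hc2 hcP hcG
    have hcP0 : ∀ i, 0 ≤ c * P i := fun i => (hcP i).mul_nonneg hc (hP0 i)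
    have hq : Q.q (c * ∑ i, P i) = ∑ i, Q.q (c * P i) := by
      rw [mul_sum]
      refine Q.q_sum_orth univ _ hcP0 fun i _ j _ hij => ?_
      rw [(hcP i).symm.mul_mul_mul_comm, horth i j hij, mul_zero]
    have hcG0 : 0 ≤ c * G := hcG.mul_nonneg hc hG0
    have hsplit : c = c * ∑ i, P i + c * G := by rw [← mul_add, hsum, mul_one]
    have h0 : 0 ≤ c * ∑ i, P i := by
      rw [mul_sum]; exact sum_nonneg fun i _ => hcP0 i
    constructor
    · rw [← hq]
      refine Q.q_mono h0 ?_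
      conv_rhs => rw [hsplit]
      exact le_add_of_nonneg_right hcG0
    · have h1 : Q.q (c * G) ≤ 8 / M := by
        have h2 : c * G ≤ (2 : ℝ) • G := by
          rw [two_smul, ← sub_nonneg]
          have := Commute.mul_nonneg (sub_nonneg.2 hc2) hG0
            (((Commute.one_left G).add_left (Commute.one_left G)).sub_left hcG)
          simpa [sub_mul, add_mul] using this
        have h3 := Q.q_mono hcG0 h2
        rw [Q.q_smul hG0 two_pos.le] at h3
        linarith [show (8 : ℝ) / M = 2 * (4 / M) by ring]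
      have h4 := Q.q_tri h0 hcG0 hs
      rw [← hsplit, hq] at h4
      nlinarith [show (0 : ℝ) ≤ 1 + 1 / s by positivity]
  obtain ⟨a1, a2⟩ := key a ha (ha1.trans (le_add_of_nonneg_right zero_le_one))
    (fun i => (hP i).2.1) haG
  obtain ⟨b1, b2⟩ := key b hb (hb1.trans (le_add_of_nonneg_right zero_le_one))
    (fun i => (hP i).2.2.1) hbG
  obtain ⟨c1, c2⟩ := key (a + b) (add_nonneg ha hb) (add_le_add ha1 hb1)
    (fun i => (hP i).2.1.add_left (hP i).2.2.1) (haG.add_left hbG)
  have hpiece : ∀ i, |Q.q ((a + b) * P i) - (Q.q (a * P i) + Q.q (b * P i))|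
      ≤ 2 / n * Q.q (P i) := by
    intro i
    obtain ⟨hp, hcaP, hcbP, hα0, hβ0⟩ := hP i
    have hn' : (0 : ℝ) ≤ 1 / n := by positivity
    have u1 := Q.q_mono (smul_nonneg hα0 hp) (hα i).1
    have u2 := Q.q_mono (hcaP.mul_nonneg ha hp) (hα i).2
    have v1 := Q.q_mono (smul_nonneg hβ0 hp) (hβ i).1
    have v2 := Q.q_mono (hcbP.mul_nonneg hb hp) (hβ i).2
    have hlo : (α i + β i) • P i ≤ (a + b) * P i := by
      rw [add_smul, add_mul]; exact add_le_add (hα i).1 (hβ i).1
    have hhi : (a + b) * P i ≤ ((α i + 1 / n) + (β i + 1 / n)) • P i := by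
      rw [add_smul, add_mul]; exact add_le_add (hα i).2 (hβ i).2
    have w1 := Q.q_mono (smul_nonneg (by positivity) hp) hlo
    have w2 := Q.q_mono ((hcaP.add_left hcbP).mul_nonneg (add_nonneg ha hb) hp) hhi
    rw [Q.q_smul hp hα0] at u1
    rw [Q.q_smul hp (by positivity)] at u2 v2 w1 w2
    rw [Q.q_smul hp hβ0] at v1
    have e : (2 : ℝ) / n * Q.q (P i) = (1 / n) * Q.q (P i) + (1 / n) * Q.q (P i) := by ring
    rw [abs_le, e]
    constructor <;> linarith
  have hdiff : |∑ i, Q.q ((a + b) * P i) - (∑ i, Q.q (a * P i) + ∑ i, Q.q (b * P i))|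
      ≤ 2 / n := by
    rw [← sum_add_distrib, ← sum_sub_distrib]
    refine (abs_sum_le_sum_abs _ _).trans ((sum_le_sum fun i _ => hpiece i).trans ?_)
    rw [← mul_sum]
    exact mul_le_of_le_one_right (by positivity) hqP
  have e1 : (2 : ℝ) / n ≤ ε / 6 := by
    rw [div_lt_iff₀ hε] at hn
    rw [div_le_iff₀ (by positivity)]; nlinarith
  have e2 : (1 + 1 / s) * (8 / M) ≤ ε / 12 := by
    rw [div_lt_iff₀ hε] at hM
    rw [← mul_div_assoc, div_le_iff₀ (by positivity)]; nlinarith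
  have hqa : Q.q a ≤ 1 := (Q.q_mono ha ha1).trans_eq Q.one
  have hqb : Q.q b ≤ 1 := (Q.q_mono hb hb1).trans_eq Q.one
  have hsa : s ≤ ε / 12 := min_le_right _ _
  have t1 : s * ∑ i, Q.q (a * P i) ≤ s := mul_le_of_le_one_right hs.le (a1.trans hqa)
  have t2 : s * ∑ i, Q.q (b * P i) ≤ s := mul_le_of_le_one_right hs.le (b1.trans hqb)
  have hqab : ∑ i, Q.q ((a + b) * P i) ≤ 4 := c1.trans ((Q.q_tri ha hb one_pos).trans (by
    norm_num; linarith))
  have t3 : s * ∑ i, Q.q ((a + b) * P i) ≤ s * 4 := mul_le_mul_of_nonneg_left hqab hs.le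
  obtain ⟨d1, d2⟩ := abs_le.1 hdiff
  rw [Real.dist_eq, abs_le]
  constructor <;> linarith

/-- Additivity on commuting positive elements. -/
lemma q_add_comm {a b : D} (ha : 0 ≤ a) (hb : 0 ≤ b) (hab : Commute a b) :
    Q.q (a + b) = Q.q a + Q.q b := by
  set r := ‖a‖ + ‖b‖ + 1
  have hr : 0 < r := by positivity
  have hle : ∀ c : D, 0 ≤ c → ‖c‖ ≤ r → r⁻¹ • c ≤ 1 := by
    intro c hc hcr
    refine (CStarAlgebra.norm_le_one_iff_of_nonneg _ (smul_nonneg (by positivity) hc)).1 ?_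
    rw [norm_smul, Real.norm_of_nonneg (by positivity), inv_mul_le_iff₀ hr, mul_one]
    exact hcr
  have h := Q.q_add_of_le_one (smul_nonneg (by positivity) ha)
    (hle a ha (by linarith [norm_nonneg b])) (smul_nonneg (by positivity) hb)
    (hle b hb (by linarith [norm_nonneg a])) ((hab.smul_left r⁻¹).smul_right r⁻¹)
  rw [← smul_add, Q.q_smul (add_nonneg ha hb) (by positivity), Q.q_smul ha (by positivity),
    Q.q_smul hb (by positivity), ← mul_add] at h
  exact mul_left_cancel₀ (inv_ne_zero hr.ne') h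

/-- Additivity on commuting self-adjoint elements. -/
lemma qs_add_comm {a b : D} (ha : IsSelfAdjoint a) (hb : IsSelfAdjoint b) (hab : Commute a b) :
    Q.qs (a + b) = Q.qs a + Q.qs b := by
  have hc : Commute (a + b) a := (Commute.refl a).add_left hab.symm
  have hd : Commute (a + b) b := hab.add_left (Commute.refl b)
  have key : ∀ x y : D, Commute x y → Commute x⁺ y ∧ Commute x⁻ y := fun x y h => by
    rw [CFC.posPart_def, CFC.negPart_def]
    exact ⟨h.cfcₙ_real _, h.cfcₙ_real _⟩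
  have pp : ∀ x y : D, Commute x y → Commute x⁺ y⁺ ∧ Commute x⁺ y⁻ ∧ Commute x⁻ y⁺ ∧
      Commute x⁻ y⁻ := fun x y h => by
    obtain ⟨h1, h2⟩ := key x y h
    exact ⟨(key y _ h1.symm).1.symm, (key y _ h1.symm).2.symm,
      (key y _ h2.symm).1.symm, (key y _ h2.symm).2.symm⟩
  obtain ⟨x1, x2, x3, x4⟩ := pp a b hab
  obtain ⟨y1, y2, y3, y4⟩ := pp (a + b) a hc
  obtain ⟨z1, z2, z3, z4⟩ := pp (a + b) b hd
  have e : (a + b)⁺ + (a⁻ + b⁻) = (a + b)⁻ + (a⁺ + b⁺) := by
    have h1 := CFC.posPart_sub_negPart (a + b) (ha.add hb)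
    have h2 := CFC.posPart_sub_negPart a ha
    have h3 := CFC.posPart_sub_negPart b hb
    rw [← sub_eq_zero]
    calc (a + b)⁺ + (a⁻ + b⁻) - ((a + b)⁻ + (a⁺ + b⁺))
        = ((a + b)⁺ - (a + b)⁻) - ((a⁺ - a⁻) + (b⁺ - b⁻)) := by abel
      _ = 0 := by rw [h1, h2, h3, sub_self]
  have h := congrArg Q.q e
  rw [Q.q_add_comm (CFC.posPart_nonneg _) (add_nonneg (CFC.negPart_nonneg a) (CFC.negPart_nonneg b))
      (y2.add_right z2),
    Q.q_add_comm (CFC.negPart_nonneg a) (CFC.negPart_nonneg b) x4,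
    Q.q_add_comm (CFC.negPart_nonneg _) (add_nonneg (CFC.posPart_nonneg a) (CFC.posPart_nonneg b))
      (y3.add_right z3),
    Q.q_add_comm (CFC.posPart_nonneg a) (CFC.posPart_nonneg b) x1] at h
  simp only [qs]
  linarith

end Vale.Agent.P095.General.QT
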