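import Mathlib
import Vale.Agent.P095.General.Linear.Basic

/-!
The quotient of a C*-algebra by the null elements of a quasitracial state, with the induced
quasitracial state.
-/

noncomputable section

open scoped CStarAlgebra
open Filter Topology

namespace Vale.Agent.P095.General.QT

universe u

variable {D : Type u} [CStarAlgebra D] [PartialOrder D] [StarOrderedRing D] (Q : QT D)

/-- The distance to the null elements. -/
def nsn (x : D) : ℝ := ⨅ j : {j : D // Q.Null j}, ‖x + (j : D)‖

instance : Nonempty {j : D // Q.Null j} := ⟨⟨0, Q.null_zero⟩⟩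

lemma nsn_le (x : D) {j : D} (hj : Q.Null j) : Q.nsn x ≤ ‖x + j‖ :=
  ciInf_le ⟨0, Set.forall_mem_range.2 fun _ => norm_nonneg _⟩ (⟨j, hj⟩ : {j : D // Q.Null j})

lemma nsn_le_norm (x : D) : Q.nsn x ≤ ‖x‖ := by simpa using Q.nsn_le x Q.null_zero

lemma nsn_nonneg (x : D) : 0 ≤ Q.nsn x := le_ciInf fun _ => norm_nonneg _

lemma exists_near (x : D) {ε : ℝ} (hε : 0 < ε) : ∃ j, Q.Null j ∧ ‖x + j‖ ≤ Q.nsn x + ε := by
  obtain ⟨⟨j, hj⟩, h⟩ := exists_lt_of_ciInf_lt (lt_add_of_pos_right (Q.nsn x) hε)
  exact ⟨j, hj, h.le⟩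

lemma nsn_zero : Q.nsn 0 = 0 :=
  le_antisymm (by simpa using Q.nsn_le_norm 0) (Q.nsn_nonneg 0)

lemma nsn_add (x y : D) : Q.nsn (x + y) ≤ Q.nsn x + Q.nsn y := by
  refine le_of_forall_pos_le_add fun ε hε => ?_
  obtain ⟨i, hi, hxi⟩ := Q.exists_near x (half_pos hε)
  obtain ⟨j, hj, hyj⟩ := Q.exists_near y (half_pos hε)
  refine (Q.nsn_le _ (Null.add Q hi hj)).trans ?_
  rw [add_add_add_comm]
  linarith [norm_add_le (x + i) (y + j)]

lemma nsn_neg (x : D) : Q.nsn (-x) = Q.nsn x := by
  have key : ∀ x, Q.nsn (-x) ≤ Q.nsn x := fun x => le_of_forall_pos_le_add fun ε hε => by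
    obtain ⟨i, hi, hxi⟩ := Q.exists_near x hε
    refine (Q.nsn_le _ (Null.neg Q hi)).trans ?_
    rwa [← neg_add, norm_neg]
  exact le_antisymm (key x) (by simpa using key (-x))

lemma nsn_star_le (x : D) : Q.nsn (star x) ≤ Q.nsn x := le_of_forall_pos_le_add fun ε hε => by
  obtain ⟨i, hi, hxi⟩ := Q.exists_near x hε
  refine (Q.nsn_le _ (Null.adj Q hi)).trans ?_
  rwa [← star_add, norm_star]

lemma nsn_smul_le (z : ℂ) (x : D) : Q.nsn (z • x) ≤ ‖z‖ * Q.nsn x := by
  refine le_of_forall_pos_le_add fun ε hε => ?_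
  obtain ⟨i, hi, hxi⟩ := Q.exists_near x (show 0 < ε / (‖z‖ + 1) by positivity)
  refine (Q.nsn_le _ (Null.smul Q hi z)).trans ?_
  rw [← smul_add, norm_smul]
  have h1 : ε / (‖z‖ + 1) * (‖z‖ + 1) = ε := by field_simp
  have h2 := mul_le_mul_of_nonneg_left hxi (norm_nonneg z)
  have h3 : 0 ≤ ε / (‖z‖ + 1) := by positivity
  nlinarith

lemma nsn_mul (x y : D) : Q.nsn (x * y) ≤ Q.nsn x * Q.nsn y := by
  refine le_of_forall_pos_le_add fun ε hε => ?_
  set p := Q.nsn x
  set r := Q.nsn y
  have hp : 0 ≤ p := Q.nsn_nonneg x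
  have hr : 0 ≤ r := Q.nsn_nonneg y
  set δ := min 1 (ε / (p + r + 1))
  have hδ : 0 < δ := lt_min one_pos (by positivity)
  obtain ⟨i, hi, hxi⟩ := Q.exists_near x hδ
  obtain ⟨j, hj, hyj⟩ := Q.exists_near y hδ
  have hnull : Q.Null ((x + i) * (y + j) - x * y) := by
    have : (x + i) * (y + j) - x * y = x * j + i * (y + j) := by noncomm_ring
    rw [this]
    exact Null.add Q (Null.mul_left Q hj x) (Null.mul_right Q hi _)
  refine (Q.nsn_le _ hnull).trans ?_
  rw [add_sub_cancel]
  refine (norm_mul_le _ _).trans ((mul_le_mul hxi hyj (norm_nonneg _) (by positivity)).trans ?_)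
  have h1 : δ * (p + r + 1) ≤ ε := (le_div_iff₀ (by positivity)).1 (min_le_right _ _)
  have h2 : δ * δ ≤ δ := mul_le_of_le_one_left hδ.le (min_le_left _ _)
  nlinarith

/-- The C*-identity: a positive contraction congruent to one squeezes x. -/
lemma nsn_star_mul (x : D) : Q.nsn x * Q.nsn x ≤ Q.nsn (star x * x) := by
  refine le_of_forall_pos_le_add fun ε hε => ?_
  obtain ⟨j, hj, hxj⟩ := Q.exists_near (star x * x) (show 0 < ε / 2 by positivity)
  set r := Q.nsn (star x * x) + ε / 2
  have hr : 0 < r + ε / 2 := by have := Q.nsn_nonneg (star x * x); positivity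
  set k : D := (2 : ℝ)⁻¹ • (j + star j)
  have hk : Q.Null k := by
    have h := Null.smul Q (Null.add Q hj (Null.adj Q hj)) (((2 : ℝ)⁻¹ : ℝ) : ℂ)
    rwa [Complex.coe_smul] at h
  have hksa : IsSelfAdjoint k := by
    simp [k, isSelfAdjoint_iff, star_smul, add_comm]
  have hxk : ‖star x * x + k‖ ≤ r := by
    have e : star x * x + k = (2 : ℝ)⁻¹ • ((star x * x + j) + star (star x * x + j)) := by
      simp only [k, star_add, star_mul, star_star, smul_add]
      match_scalars <;> norm_num
    rw [e, norm_smul, Real.norm_of_nonneg (by norm_num : (0 : ℝ) ≤ 2⁻¹)]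
    have := norm_add_le (star x * x + j) (star (star x * x + j))
    rw [norm_star] at this
    linarith
  have h0 : star x * x ≤ algebraMap ℝ D (r + ε / 2) + (ε / 2)⁻¹ • (k * k) := by
    have h1 : star x * x + k ≤ algebraMap ℝ D r :=
      ((IsSelfAdjoint.star_mul_self x).add hksa).le_algebraMap_norm_self.trans
        (algebraMap_mono D hxk)
    have h2 : -k ≤ algebraMap ℝ D (ε / 2) + (ε / 2)⁻¹ • (k * k) := by
      rw [← sub_nonneg]
      have e : algebraMap ℝ D (ε / 2) + (ε / 2)⁻¹ • (k * k) - -k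
          = cfc (fun t : ℝ => ε / 2 + (ε / 2)⁻¹ * (t * t) + t) k := by
        rw [cfc_add (a := k) (fun t : ℝ => ε / 2 + (ε / 2)⁻¹ * (t * t)) (fun t : ℝ => t)
            (Continuous.continuousOn (by fun_prop)) continuous_id.continuousOn,
          cfc_const_add (ε / 2) (fun t : ℝ => (ε / 2)⁻¹ * (t * t)) k
            (Continuous.continuousOn (by fun_prop)) hksa,
          cfc_const_mul (ε / 2)⁻¹ (fun t : ℝ => t * t) k (Continuous.continuousOn (by fun_prop)),
          cfc_mul (fun t : ℝ => t) (fun t : ℝ => t) k continuous_id.continuousOn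
            continuous_id.continuousOn, cfc_id' ℝ k hksa, sub_neg_eq_add]
      rw [e]
      refine cfc_nonneg fun t _ => ?_
      have e2 : ε / 2 + (ε / 2)⁻¹ * (t * t) + t
          = (ε / 2)⁻¹ * ((t + ε / 4) ^ 2 + 3 * ε ^ 2 / 16) := by
        field_simp; ring
      rw [e2]
      positivity
    have h3 := add_le_add h1 h2
    rw [add_neg_cancel_right, ← add_assoc, ← map_add] at h3
    exact h3
  set T := k * k with hT
  have hTnn : 0 ≤ T := by simpa [T, hksa.star_eq] using star_mul_self_nonneg k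
  have hTsa := IsSelfAdjoint.of_nonneg hTnn
  set c := r + ε / 2
  set f : ℝ → ℝ := fun t => Real.sqrt (c / (c + (ε / 2)⁻¹ * max t 0)) with hf
  have hfc : Continuous f := (continuous_const.div (continuous_const.add (continuous_const.mul
    (continuous_id.max continuous_const))) fun t => ne_of_gt (add_pos_of_pos_of_nonneg hr
      (mul_nonneg (by positivity) (le_max_right _ _)))).sqrt
  set g := cfc f T with hg
  have hgsa : IsSelfAdjoint g := cfc_predicate _ T
  have hgn : ‖g * (star x * x) * g‖ ≤ c := by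
    refine (CStarAlgebra.norm_le_norm_of_nonneg_of_le (hgsa.conjugate_nonneg
      (star_mul_self_nonneg x)) (hgsa.conjugate_le_conjugate h0)).trans ?_
    have e : g * (algebraMap ℝ D c + (ε / 2)⁻¹ • T) * g
        = cfc (fun t : ℝ => f t * (c + (ε / 2)⁻¹ * t) * f t) T := by
      rw [cfc_mul (fun t : ℝ => f t * (c + (ε / 2)⁻¹ * t)) f T
          (hfc.mul (by fun_prop)).continuousOn hfc.continuousOn,
        cfc_mul f (fun t : ℝ => c + (ε / 2)⁻¹ * t) T hfc.continuousOn
          (Continuous.continuousOn (by fun_prop)),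
        cfc_const_add c (fun t : ℝ => (ε / 2)⁻¹ * t) T (Continuous.continuousOn (by fun_prop))
          hTsa,
        cfc_const_mul (ε / 2)⁻¹ (fun t : ℝ => t) T continuous_id.continuousOn, cfc_id' ℝ T hTsa]
    rw [e]
    refine norm_cfc_le hr.le fun t ht => le_of_eq ?_
    have ht0 := spectrum_nonneg_of_nonneg hTnn ht
    have hd : 0 < c + (ε / 2)⁻¹ * t := add_pos_of_pos_of_nonneg hr (by positivity)
    have hff : f t * f t = c / (c + (ε / 2)⁻¹ * t) := by
      simp only [hf, max_eq_left ht0]
      exact Real.mul_self_sqrt (by positivity)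
    rw [mul_right_comm, hff, div_mul_cancel₀ _ hd.ne', Real.norm_of_nonneg hr.le]
  have hg1 : Q.Null (g - 1) := by
    set h : ℝ → ℝ := fun t =>
      -((ε / 2)⁻¹ / ((c + (ε / 2)⁻¹ * max t 0) * (1 + f t)))
    have hhc : Continuous h := by
      refine (continuous_const.div ((continuous_const.add (continuous_const.mul
        (continuous_id.max continuous_const))).mul (continuous_const.add hfc)) fun t => ?_).neg
      exact mul_ne_zero (ne_of_gt (add_pos_of_pos_of_nonneg hr
        (mul_nonneg (by positivity) (le_max_right _ _))))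
        (ne_of_gt (add_pos_of_pos_of_nonneg one_pos (Real.sqrt_nonneg _)))
    have e : g - 1 = cfc h T * T := by
      conv_rhs => arg 2; rw [← cfc_id' ℝ T hTsa]
      rw [← cfc_mul h (fun t : ℝ => t) T hhc.continuousOn continuous_id.continuousOn,
        hg, ← cfc_const_one ℝ T hTsa,
        ← cfc_sub f (fun _ => 1) T hfc.continuousOn continuousOn_const]
      refine cfc_congr fun t ht => ?_
      have ht0 := spectrum_nonneg_of_nonneg hTnn ht
      have hd : 0 < c + (ε / 2)⁻¹ * t := add_pos_of_pos_of_nonneg hr (by positivity)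
      have hff : f t * f t = c / (c + (ε / 2)⁻¹ * t) := by
        simp only [hf, max_eq_left ht0]
        exact Real.mul_self_sqrt (by positivity)
      have hf1 : 0 < 1 + f t := add_pos_of_pos_of_nonneg one_pos (Real.sqrt_nonneg _)
      simp only [h, max_eq_left ht0]
      have hff' : f t * f t * (c + (ε / 2)⁻¹ * t) = c := by
        rw [hff, div_mul_cancel₀ _ hd.ne']
      rw [neg_mul, div_mul_eq_mul_div, eq_neg_iff_add_eq_zero, ← eq_neg_iff_add_eq_zero,
        ← neg_div, eq_div_iff (mul_ne_zero hd.ne' hf1.ne')]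
      linear_combination hff'
    rw [e, hT, ← mul_assoc]
    exact Null.mul_left Q hk _
  have hxg : Q.nsn x ≤ ‖x * g‖ := by
    have h1 := Q.nsn_le x (Null.mul_left Q hg1 x)
    rwa [mul_sub, mul_one, add_sub_cancel] at h1
  have h2 : ‖x * g‖ * ‖x * g‖ ≤ c := by
    rw [← CStarRing.norm_star_mul_self, star_mul, hgsa.star_eq]
    simpa only [mul_assoc] using hgn
  have h3 : c = Q.nsn (star x * x) + ε := by simp only [c, r]; ring
  exact (mul_le_mul hxg hxg (Q.nsn_nonneg x) (norm_nonneg _)).trans (h2.trans h3.le)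

lemma nsn_null {x : D} : Q.nsn x = 0 ↔ Q.Null x := by
  refine ⟨fun h => Q.null_of_approx fun ε hε => ?_, fun h => le_antisymm ?_ (Q.nsn_nonneg x)⟩
  · obtain ⟨j, hj, hxj⟩ := Q.exists_near x hε
    exact ⟨-j, Null.neg Q hj, by rwa [sub_neg_eq_add, ← zero_add ε, ← h]⟩
  · simpa using Q.nsn_le x (Null.neg Q h)

/-- The algebra with the seminorm. -/
def Pre (_ : QT D) : Type u := D

instance : Ring (Pre Q) := inferInstanceAs (Ring D)
instance : StarRing (Pre Q) := inferInstanceAs (StarRing D)
instance : Algebra ℂ (Pre Q) := inferInstanceAs (Algebra ℂ D)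
instance : StarModule ℂ (Pre Q) := inferInstanceAs (StarModule ℂ D)

/-- The underlying element. -/
def Pre.val {Q : QT D} (a : Pre Q) : D := a

/-- The seminorm on the copy. -/
def preSeminorm : AddGroupSeminorm (Pre Q) where
  toFun a := Q.nsn (Pre.val a)
  map_zero' := Q.nsn_zero
  add_le' _ _ := Q.nsn_add _ _
  neg' _ := Q.nsn_neg _

instance : SeminormedAddCommGroup (Pre Q) := (preSeminorm Q).toSeminormedAddCommGroup

instance : SeminormedRing (Pre Q) where
  __ : Ring (Pre Q) := inferInstance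
  __ : SeminormedAddCommGroup (Pre Q) := inferInstance
  norm_mul_le _ _ := Q.nsn_mul _ _

instance : NormedAlgebra ℂ (Pre Q) where
  __ : Algebra ℂ (Pre Q) := inferInstance
  norm_smul_le z a := Q.nsn_smul_le z (Pre.val a)

instance : NormedStarGroup (Pre Q) := ⟨fun a => Q.nsn_star_le (Pre.val a)⟩

/-- The separation quotient. -/
abbrev SQuot : Type u := SeparationQuotient (Pre Q)

instance : Star (SQuot Q) :=
  ⟨SeparationQuotient.lift (fun a => SeparationQuotient.mk (star a)) fun _ _ h =>
    SeparationQuotient.mk_eq_mk.2 (h.map continuous_star)⟩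

instance : StarRing (SQuot Q) where
  star_involutive := by
    rintro ⟨a⟩
    show SeparationQuotient.mk (star (star a)) = _
    rw [star_star]; rfl
  star_mul := by
    rintro ⟨a⟩ ⟨b⟩
    show SeparationQuotient.mk (star (a * b)) = _
    rw [star_mul]; rfl
  star_add := by
    rintro ⟨a⟩ ⟨b⟩
    show SeparationQuotient.mk (star (a + b)) = _
    rw [star_add]; rfl

instance : StarModule ℂ (SQuot Q) where
  star_smul z := by
    rintro ⟨a⟩
    show SeparationQuotient.mk (star (z • a)) = _
    rw [star_smul]; rfl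

instance : CStarRing (SQuot Q) where
  norm_mul_self_le := by
    rintro ⟨a⟩
    exact Q.nsn_star_mul (Pre.val a)

/-- The quotient map. -/
def sproj : D →⋆ₐ[ℂ] SQuot Q where
  toFun a := SeparationQuotient.mk (show Pre Q from a)
  map_one' := rfl
  map_mul' _ _ := rfl
  map_zero' := rfl
  map_add' _ _ := rfl
  commutes' _ := rfl
  map_star' _ := rfl

lemma norm_sproj (a : D) : ‖sproj Q a‖ = Q.nsn a := rfl

lemma sproj_surjective : Function.Surjective (sproj Q) := fun x => SeparationQuotient.surjective_mk x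

lemma sproj_eq_iff {a b : D} : sproj Q a = sproj Q b ↔ Q.Null (a - b) := by
  rw [← sub_eq_zero, ← norm_eq_zero, ← map_sub, norm_sproj, nsn_null]

lemma continuous_sproj : Continuous (sproj Q) :=
  AddMonoidHomClass.continuous_of_bound (sproj Q) 1 fun a => by
    rw [one_mul, norm_sproj]; exact Q.nsn_le_norm a

instance : CompleteSpace (SQuot Q) := by
  refine NormedAddCommGroup.completeSpace_of_summable_imp_tendsto fun u hu => ?_
  have hrep : ∀ k, ∃ a : D, sproj Q a = u k ∧ ‖a‖ ≤ ‖u k‖ + (1 / 2) ^ k := by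
    intro k
    obtain ⟨a, ha⟩ := sproj_surjective Q (u k)
    obtain ⟨j, hj, haj⟩ := Q.exists_near a (show (0 : ℝ) < (1 / 2) ^ k by positivity)
    refine ⟨a + j, ?_, by rwa [← ha, norm_sproj]⟩
    rw [← ha, sproj_eq_iff, add_sub_cancel_left]
    exact hj
  choose a ha hn using hrep
  have hs : Summable a := Summable.of_norm_bounded (hu.add summable_geometric_two) hn
  refine ⟨sproj Q (∑' k, a k), ?_⟩
  have h := ((continuous_sproj Q).tendsto _).comp hs.hasSum.tendsto_sum_nat
  simpa only [Function.comp_def, map_sum, ha] using h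

instance : CStarAlgebra (SQuot Q) where

/-- The quotient algebra, with the real structure coming from the complex one. -/
def Quot : Type u := SQuot Q

instance : CStarAlgebra (Quot Q) := inferInstanceAs (CStarAlgebra (SQuot Q))

/-- The quotient map. -/
def proj : D →⋆ₐ[ℂ] Quot Q := sproj Q

lemma proj_surjective : Function.Surjective (proj Q) := sproj_surjective Q

lemma proj_eq_iff {a b : D} : proj Q a = proj Q b ↔ Q.Null (a - b) := sproj_eq_iff Q

end Vale.Agent.P095.General.QT
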